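import Vale.Agent.P304.Sq.Final
import Vale.Agent.P304.Sq.Glue
import Vale.Agent.P304.Sq.Level
import Vale.Agent.P304.Sq.Tree

namespace Vale.Agent.Results.P304.A_log2

open Vale.Agent.P304.KS

universe u

theorem result : ∃ C : ℝ, ∀ k : ℕ, 2 ≤ k → ∀ (X : Type u) [MetricSpace X] (s : Fin k → X),
    ∃ (A : Policy X k) (B : ℝ), ∀ σ : List X,
      expCost A [] s σ ≤ C * Real.log k ^ 2 * OPT s σ + B :=
  final2 (Vale.Agent.P304.Sq.bayes2 Vale.Agent.P304.Sq.level2 Vale.Agent.P304.Sq.tree2)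

end Vale.Agent.Results.P304.A_log2
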