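import Vale.Agent.P304.Final
import Vale.Agent.P304.Glue
import Vale.Agent.P304.Level
import Vale.Agent.P304.Tree

namespace Vale.Agent.Results.P304.A_polylog

open Vale.Agent.P304.KS

universe u

theorem result : ∃ C : ℝ, ∀ k : ℕ, 2 ≤ k → ∀ (X : Type u) [MetricSpace X] (s : Fin k → X),
    ∃ (A : Policy X k) (B : ℝ), ∀ σ : List X,
      expCost A [] s σ ≤ C * Real.log k ^ 4 * OPT s σ + B :=
  final (Vale.Agent.P304.bayes Vale.Agent.P304.level Vale.Agent.P304.tree)

end Vale.Agent.Results.P304.A_polylog
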